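import Vale.Agent.P004X.P004G.All
import Vale.Agent.P004X.P004G.H503.Fin2
import Vale.Agent.P004X.P004G.H175.Z1
import Vale.Agent.P004X.P004G.H175.Z2
import Vale.Agent.P004X.P004G.H175.Van
import Vale.Agent.P004X.P004G.H175.Mom
import Vale.Agent.P004X.P004G.H392.ML1
import Vale.Agent.P004X.P004G.H392.ML2
import Vale.Agent.P004X.P004G.H392.MLQ
import Vale.Agent.P004X.P004G.H871.MLS2
import Vale.Agent.P004X.P004G.H871.Rank
import Vale.Agent.P004X.P004G.H3.MG2
import Vale.Agent.P004X.P004G.H394.Gs6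
import Vale.Agent.P004X.P004G.H253.SM
import Vale.Agent.P004X.P004G.H253.SW5
import Vale.Agent.P004X.P004.H628.QM
import Vale.Agent.P004X.P004.H628.QW5

/-!
# P004G: all modules together
-/

namespace P004G

open ML

/-- the block estimate, tail and moments for every coefficient system -/
theorem mainG : ∀ [Crv], StTF → StMom := fun h => pfMom (block (pfZ1 h) (pfZ2 h))

theorem allMLG : StMLG := MG.pfMLG M1.pfLocGood M1.pfLocAdd M1.pfLocShape M2.pfLoc M2.pfEul

theorem allMLS : StMLS := MS.pfMLS M1.pfLocGood M1.pfLocAdd M2.pfLoc M2.pfEul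

/-- every elliptic curve, from Hasse's bound and the functional equations of the twists -/
theorem concl_all {a b : ℤ} (hd : 4 * a ^ 3 + 27 * b ^ 2 ≠ 0) (hM : Modl a b) : Concl a b :=
  concl_of (tailMom_of (fun h => mainG h) pfVan1 allMLG pfLbound pfLent pfLrank hd hM)

/-- the curves `y² = x³ + a x` (`a ≠ 0`) and `y² = x³ + b` (`b ≠ 0`) -/
def CMc (a b : ℤ) : Prop := (a ≠ 0 ∧ b = 0) ∨ (a = 0 ∧ b ≠ 0)

theorem CMc.disc {a b : ℤ} (h : CMc a b) : 4 * a ^ 3 + 27 * b ^ 2 ≠ 0 := by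
  rcases h with ⟨h, rfl⟩ | ⟨rfl, h⟩ <;> simpa using h

theorem CMc.modl {a b : ℤ} (h : CMc a b) : Modl a b := by
  rcases h with ⟨h, rfl⟩ | ⟨rfl, h⟩
  · have := P004.QN.modlQ MQ.pfMLQ (A := -a) (neg_ne_zero.2 h)
    rwa [neg_neg] at this
  · exact SX.modlS' allMLS h

theorem CMc.odd {a b : ℤ} (h : CMc a b) : OddHalf a b := by
  rcases h with ⟨h, rfl⟩ | ⟨rfl, h⟩
  · have := P004.QN.oddHalfQ MQ.pfMLQ pfLent pfLparity (A := -a) (neg_ne_zero.2 h)
    rwa [neg_neg] at this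
  · exact SX.oddHalfS' allMLS pfLent pfLparity h

theorem CMc.main {a b : ℤ} (h : CMc a b) :
    TailMom a b ∧ OddHalf a b ∧ ∀ k : ℕ, 1 ≤ k → Equivs a b k :=
  ⟨(concl_all h.disc h.modl).1, h.odd, fun k hk => (concl_all h.disc h.modl).2.2 h.odd k hk⟩

end P004G
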